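import Mathlib

/-!
Areas of discs and annuli in the plane, and the area mean value property of harmonic functions.
-/

namespace Vale.Agent.P250.Full.Shells

open Complex MeasureTheory Set InnerProductSpace
open scoped ComplexConjugate Real ENNReal

lemma volume_disc {b : ℝ} (hb : 0 ≤ b) :
    volume (Metric.ball (0 : ℂ) (Real.sqrt b)) = ENNReal.ofReal (π * b) := by
  rw [Complex.volume_ball, ← ENNReal.ofReal_pow (Real.sqrt_nonneg _), Real.sq_sqrt hb,
    ← ENNReal.ofReal_coe_nnreal, ← ENNReal.ofReal_mul hb, NNReal.coe_real_pi, mul_comm]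

lemma annulus_eq_diff {a b : ℝ} (ha : 0 ≤ a) :
    {w : ℂ | a < ‖w‖ ^ 2 ∧ ‖w‖ ^ 2 < b}
      = Metric.ball 0 (Real.sqrt b) \ Metric.closedBall 0 (Real.sqrt a) := by
  ext w
  simp only [mem_ofPred_eq, mem_sdiff, mem_ball_zero_iff, mem_closedBall_zero_iff, not_le,
    Real.lt_sqrt (norm_nonneg w), Real.sqrt_lt ha (norm_nonneg w)]
  tauto

lemma volume_annulus {a b : ℝ} (ha : 0 ≤ a) (hab : a < b) :
    volume {w : ℂ | a < ‖w‖ ^ 2 ∧ ‖w‖ ^ 2 < b} = ENNReal.ofReal (π * (b - a)) := by
  rw [annulus_eq_diff ha, measure_sdiff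
      (Metric.closedBall_subset_ball (Real.sqrt_lt_sqrt ha hab))
      measurableSet_closedBall.nullMeasurableSet measure_closedBall_lt_top.ne,
    Measure.addHaar_closedBall_eq_addHaar_ball, volume_disc (ha.trans hab.le), volume_disc ha,
    ← ENNReal.ofReal_sub _ (by positivity), mul_sub]

/-- Polar coordinates with the radius outside. -/
lemma integral_polar {f : ℂ → ℝ} (hm : Measurable f) (hf : Integrable f) :
    ∫ z, f z = ∫ r in Ioi (0 : ℝ), r * (2 * π * Real.circleAverage f 0 r) := by
  set g : ℝ × ℝ → ℝ := fun p => p.1 * f ((p.1 : ℂ) * exp ((p.2 : ℂ) * I)) with hg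
  have hsymm : ∀ p : ℝ × ℝ, Complex.polarCoord.symm p = (p.1 : ℂ) * exp ((p.2 : ℂ) * I) := by
    intro p
    rw [Complex.polarCoord_symm_apply, exp_mul_I, ofReal_cos, ofReal_sin]
  have hint : IntegrableOn g (Ioi 0 ×ˢ Ioo (-π) π) := by
    refine ⟨(show Measurable g by fun_prop).aestronglyMeasurable, ?_⟩
    refine hasFiniteIntegral_iff_enorm.2 ?_
    have h := hasFiniteIntegral_iff_enorm.1 hf.hasFiniteIntegral
    rw [← Complex.lintegral_comp_polarCoord_symm] at h
    refine lt_of_le_of_lt (setLIntegral_mono' (measurableSet_Ioi.prod measurableSet_Ioo)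
      fun p hp => ?_) h
    rw [hg, enorm_mul, Real.enorm_eq_ofReal_abs, abs_of_pos (mem_Ioi.1 hp.1), hsymm]
    rfl
  rw [← Complex.integral_comp_polarCoord_symm]
  simp only [hsymm, smul_eq_mul]
  rw [show polarCoord.target = Ioi (0 : ℝ) ×ˢ Ioo (-π) π from rfl, Measure.volume_eq_prod,
    setIntegral_prod _ (by rwa [Measure.volume_eq_prod] at hint)]
  refine setIntegral_congr_fun measurableSet_Ioi fun r hr => ?_
  simp only
  rw [integral_const_mul]
  congr 1
  have hper : Function.Periodic (fun θ : ℝ => f (circleMap 0 r θ)) (2 * π) :=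
    fun θ => by simp only [periodic_circleMap (0 : ℂ) r θ]
  have h := hper.intervalIntegral_add_eq (-π) 0
  rw [show -π + 2 * π = π by ring, zero_add] at h
  rw [Real.circleAverage_def, smul_eq_mul, ← h,
    intervalIntegral.integral_of_le (by linarith [Real.pi_pos]), integral_Ioc_eq_integral_Ioo]
  simp only [circleMap_zero]
  field_simp
  simp only [mul_comm I]

/-- Area mean value over a disc. -/
lemma integral_disc {H : ℂ → ℝ} {b : ℝ} (hb : 0 ≤ b)
    (hH : HarmonicOnNhd H (Metric.closedBall 0 b)) :
    ∫ w in Metric.ball 0 b, H w = π * b ^ 2 * H 0 := by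
  have hm : Measurable ((Metric.ball (0 : ℂ) b).indicator H) := by
    classical
    rw [← Set.piecewise_eq_indicator]
    exact ContinuousOn.measurable_piecewise
      (hH.continuousOn.mono Metric.ball_subset_closedBall) continuousOn_const measurableSet_ball
  have hi : Integrable ((Metric.ball (0 : ℂ) b).indicator H) :=
    (integrable_indicator_iff measurableSet_ball).2
      ((hH.continuousOn.integrableOn_compact (isCompact_closedBall 0 b)).mono_set
        Metric.ball_subset_closedBall)
  rw [← integral_indicator measurableSet_ball, integral_polar hm hi]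
  have hin : EqOn (fun r => r * (2 * π * Real.circleAverage
      ((Metric.ball (0 : ℂ) b).indicator H) 0 r))
      ((Iio b).indicator fun r => 2 * π * H 0 * r) (Ioi 0) := fun r hr => by
    simp only
    by_cases hlt : r < b
    · have hr' : |r| = r := abs_of_pos hr
      rw [indicator_of_mem (show r ∈ Iio b from hlt),
        Real.circleAverage_congr_sphere (f₂ := H) fun w hw => indicator_of_mem ?_ _,
        InnerProductSpace.HarmonicOnNhd.circleAverage_eq
          (hH.mono (Metric.closedBall_subset_closedBall (by rw [hr']; exact hlt.le)))]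
      · ring
      · rw [mem_sphere_zero_iff_norm, hr'] at hw
        rw [mem_ball_zero_iff, hw]; exact hlt
    · rw [indicator_of_notMem (show r ∉ Iio b from hlt),
        Real.circleAverage_congr_sphere (f₂ := fun _ => (0 : ℝ)) fun w hw => indicator_of_notMem ?_ _,
        Real.circleAverage_const, mul_zero, mul_zero]
      rw [mem_sphere_zero_iff_norm, abs_of_pos (mem_Ioi.1 hr)] at hw
      rw [mem_ball_zero_iff, hw]; exact hlt
  rw [setIntegral_congr_fun measurableSet_Ioi hin, setIntegral_indicator measurableSet_Iio,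
    Ioi_inter_Iio, ← integral_Ioc_eq_integral_Ioo, ← intervalIntegral.integral_of_le hb,
    intervalIntegral.integral_const_mul, integral_id]
  ring

/-- Area mean value over an annulus. -/
lemma integral_annulus {H : ℂ → ℝ} {a b : ℝ} (ha : 0 ≤ a) (hab : a < b)
    (hH : HarmonicOnNhd H (Metric.closedBall 0 (Real.sqrt b))) :
    ∫ w in {w : ℂ | a < ‖w‖ ^ 2 ∧ ‖w‖ ^ 2 < b}, H w = π * (b - a) * H 0 := by
  have hlt := Real.sqrt_lt_sqrt ha hab
  have hint : IntegrableOn H (Metric.ball 0 (Real.sqrt b)) :=
    (hH.continuousOn.integrableOn_compact (isCompact_closedBall 0 _)).mono_set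
      Metric.ball_subset_closedBall
  have he : (Metric.closedBall (0 : ℂ) (Real.sqrt a) : Set ℂ)
      =ᵐ[volume] (Metric.ball (0 : ℂ) (Real.sqrt a) : Set ℂ) := by
    refine (ae_eq_of_subset_of_measure_ge Metric.ball_subset_closedBall ?_
      measurableSet_ball.nullMeasurableSet measure_closedBall_lt_top.ne).symm
    exact (Measure.addHaar_closedBall_eq_addHaar_ball volume (0 : ℂ) _).le
  rw [annulus_eq_diff ha, setIntegral_sdiff measurableSet_closedBall hint
    (Metric.closedBall_subset_ball hlt), setIntegral_congr_set he,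
    integral_disc (Real.sqrt_nonneg _) hH,
    integral_disc (Real.sqrt_nonneg _) (hH.mono (Metric.closedBall_subset_closedBall hlt.le)),
    Real.sq_sqrt ha, Real.sq_sqrt (ha.trans hab.le)]
  ring

end Vale.Agent.P250.Full.Shells
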