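import Vale.Agent.P250.Full.Spec

/-!
Unitary frames of `ℂ²` and slice sets of shells in such a frame.
-/

namespace Vale.Agent.P250.Full.Shells

open Complex MeasureTheory Set Matrix
open scoped ComplexConjugate Real

variable {e : Fin 2 → ℂ}

lemma sph_mul_conj (he : e ∈ sph) : e 0 * conj (e 0) + e 1 * conj (e 1) = 1 := by
  rw [Complex.mul_conj, Complex.mul_conj]
  exact_mod_cast (he : normSq (e 0) + normSq (e 1) = 1)

lemma ip_frame (he : e ∈ sph) (a b : ℂ) : ip (a • e + b • perp e) e = a := by
  simp [ip, perp]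
  linear_combination a * sph_mul_conj he

lemma nsq_frame (he : e ∈ sph) (a b : ℂ) :
    nsq (a • e + b • perp e) = ‖a‖ ^ 2 + ‖b‖ ^ 2 := by
  have h : normSq (e 0) + normSq (e 1) = 1 := he
  simp [nsq, perp, normSq_apply, ← normSq_eq_norm_sq] at h ⊢
  linear_combination (a.re * a.re + a.im * a.im + b.re * b.re + b.im * b.im) * h

/-- The unitary matrix with columns `e`, `perp e`. -/
noncomputable def frameMat (e : Fin 2 → ℂ) : Matrix (Fin 2) (Fin 2) ℂ :=
  !![e 0, -conj (e 1); e 1, conj (e 0)]

lemma det_frameMat (he : e ∈ sph) : (frameMat e).det = 1 := by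
  rw [frameMat, Matrix.det_fin_two_of]
  linear_combination sph_mul_conj he

/-- The coordinates along `e` and `perp e`. -/
noncomputable def frame (e : Fin 2 → ℂ) (p : ℂ × ℂ) : Fin 2 → ℂ := p.1 • e + p.2 • perp e

lemma continuous_frame (e : Fin 2 → ℂ) : Continuous (frame e) := by unfold frame; fun_prop

lemma measurePreserving_frame (he : e ∈ sph) :
    MeasurePreserving (frame e) volume volume := by
  set T : (Fin 2 → ℂ) →ₗ[ℝ] (Fin 2 → ℂ) :=
    (Matrix.toLin' (frameMat e)).restrictScalars ℝ with hT
  have hdet : LinearMap.det T = 1 := by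
    simp [hT, LinearMap.det_restrictScalars, LinearMap.det_toLin', det_frameMat he,
      Algebra.norm_complex_eq]
  have hmp : MeasurePreserving T volume volume := by
    refine ⟨T.continuous_of_finiteDimensional.measurable, ?_⟩
    rw [Measure.map_linearMap_addHaar_eq_smul_addHaar _ (by rw [hdet]; exact one_ne_zero), hdet]
    simp
  have h := hmp.comp ((volume_preserving_finTwoArrow ℂ).symm)
  refine (congrArg (fun F => MeasurePreserving F volume volume) ?_).mp h
  funext p
  ext i
  fin_cases i <;>
    simp [hT, frame, frameMat, perp, Matrix.toLin'_apply, Matrix.mulVec, dotProduct,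
      Fin.sum_univ_two, MeasurableEquiv.finTwoArrow, MeasurableEquiv.piFinTwo] <;> ring

lemma measurableEmbedding_frame (he : e ∈ sph) : MeasurableEmbedding (frame e) := by
  refine (continuous_frame e).measurableEmbedding fun p q h => ?_
  have h1 : p.1 = q.1 := by
    simpa only [frame, ip_frame he] using congrArg (fun z => ip z e) h
  have h2 : nsq ((p.1 - q.1) • e + (p.2 - q.2) • perp e) = 0 := by
    rw [show (p.1 - q.1) • e + (p.2 - q.2) • perp e = frame e p - frame e q by
      simp only [frame, sub_smul]; abel, h, sub_self]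
    simp [nsq]
  rw [nsq_frame he, h1, sub_self, norm_zero] at h2
  have h3 : ‖p.2 - q.2‖ = 0 := by nlinarith [norm_nonneg (p.2 - q.2)]
  exact Prod.ext h1 (sub_eq_zero.1 (norm_eq_zero.1 h3))

/-- The fibre over `s` of a shell in frame coordinates. -/
def fib (R' R : ℝ) (s : ℂ) : Set ℂ :=
  {w | R' ^ 2 < ‖s‖ ^ 2 + ‖w‖ ^ 2 ∧ ‖s‖ ^ 2 + ‖w‖ ^ 2 < R ^ 2}

lemma preimage_sliceSet (he : e ∈ sph) (R' R : ℝ) (E : Set ℂ) :
    frame e ⁻¹' sliceSet R' R e E = {p | p.1 ∈ E ∧ p.2 ∈ fib R' R p.1} := by
  ext p
  simp only [mem_preimage, sliceSet, shell, mem_ofPred_eq, frame, nsq_frame he, ip_frame he, fib]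
  tauto

lemma measurableSet_shell (R' R : ℝ) : MeasurableSet (shell R' R) := by
  have hn : Continuous nsq := by unfold nsq; fun_prop
  exact ((isOpen_lt continuous_const hn).inter (isOpen_lt hn continuous_const)).measurableSet

lemma measurableSet_sliceSet {R' R : ℝ} {E : Set ℂ} (hE : MeasurableSet E) (e : Fin 2 → ℂ) :
    MeasurableSet (sliceSet R' R e E) := by
  have hi : Continuous fun z => ip z e := by unfold ip; fun_prop
  exact (measurableSet_shell R' R).inter (hi.measurable hE)

end Vale.Agent.P250.Full.Shells
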